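import Mathlib

/-! The Fellows-Koblitz primality criterion (for numbers `p` with known factorisation of `p - 1`):
soundness and completeness. -/

open Finset

namespace Vale.Agent.H25.FK

/-- Soundness. -/
theorem sound {p : ℕ} (hp : 2 ≤ p) (A : Finset ℕ) (ν : ℕ → ℕ) (hν : ∀ a ∈ A, 0 < ν a)
    (h1 : ∀ a ∈ A, (a : ZMod p) ^ ν a = 1)
    (h2 : ∀ a ∈ A, ∀ q : ℕ, q.Prime → q ∣ ν a → Nat.Coprime (a ^ (ν a / q) - 1) p)
    (hL : p ≤ (A.lcm ν) ^ 2) : p.Prime := by
  by_contra hcon
  set l := p.minFac with hl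
  have hlp : l.Prime := Nat.minFac_prime (by omega)
  have : Fact l.Prime := ⟨hlp⟩
  have hldvd : l ∣ p := Nat.minFac_dvd p
  have hl2 : l ^ 2 ≤ p := Nat.minFac_sq_le_self (by omega) hcon
  have hdiv : ∀ a ∈ A, ν a ∣ l - 1 := by
    intro a ha
    have hpow : (a : ZMod l) ^ ν a = 1 := by
      have h3 := congrArg (ZMod.castHom hldvd (ZMod l)) (h1 a ha)
      rw [map_pow, map_natCast, map_one] at h3
      exact h3
    have ha0 : (a : ZMod l) ≠ 0 := by
      intro h0
      rw [h0, zero_pow (hν a ha).ne'] at hpow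
      exact zero_ne_one hpow
    have hapos : 0 < a := by
      rcases Nat.eq_zero_or_pos a with h0 | h0
      · rw [h0] at ha0; simp at ha0
      · exact h0
    have hord : orderOf (a : ZMod l) = ν a := by
      apply orderOf_eq_of_pow_and_pow_div_prime (hν a ha) hpow
      intro q hq hqd h0
      have hc := h2 a ha q hq hqd
      have hd : l ∣ a ^ (ν a / q) - 1 := by
        have h3 : ((a ^ (ν a / q) - 1 : ℕ) : ZMod l) = 0 := by
          rw [Nat.cast_sub (Nat.one_le_pow _ _ hapos)]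
          push_cast
          rw [h0, sub_self]
        exact (ZMod.natCast_eq_zero_iff _ _).1 h3
      have h4 : l ∣ 1 := by
        have := Nat.dvd_gcd hd hldvd
        rwa [Nat.Coprime.gcd_eq_one hc] at this
      exact hlp.one_lt.ne' (Nat.dvd_one.1 h4)
    rw [← hord]
    exact ZMod.orderOf_dvd_card_sub_one ha0
  have hLd : A.lcm ν ∣ l - 1 := Finset.lcm_dvd hdiv
  have hl1 : 0 < l - 1 := by have := hlp.two_le; omega
  have hLle : A.lcm ν ≤ l - 1 := Nat.le_of_dvd hl1 hLd
  have : A.lcm ν < l := by omega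
  have h5 : (A.lcm ν) ^ 2 < l ^ 2 := Nat.pow_lt_pow_left this (by norm_num)
  omega

/-- `π(2^s) ≥ 2^s / (2 s)`. -/
theorem pi_two_pow {s : ℕ} (hs : 3 ≤ s) : 2 ^ s ≤ 2 * s * Nat.primeCounting (2 ^ s) := by
  have h := Chebyshev.pi_ge (2 ^ s)
  have hl2 : 0 < Real.log 2 := Real.log_pos (by norm_num)
  have hs0 : (0 : ℝ) < s := by exact_mod_cast (by omega : 0 < s)
  have e1 : Real.log ((2 ^ s : ℕ) : ℝ) = s * Real.log 2 := by
    push_cast; rw [Real.log_pow]
  have e2 : Real.log (((2 ^ s : ℕ) : ℝ) + 1) ≤ (s + 1) * Real.log 2 := by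
    have h3 : ((2 ^ s : ℕ) : ℝ) + 1 ≤ 2 ^ (s + 1) := by
      push_cast
      have : (1 : ℝ) ≤ 2 ^ s := one_le_pow₀ (by norm_num)
      rw [pow_succ]; linarith
    calc Real.log (((2 ^ s : ℕ) : ℝ) + 1) ≤ Real.log (2 ^ (s + 1)) :=
          Real.log_le_log (by positivity) h3
      _ = (s + 1) * Real.log 2 := by rw [Real.log_pow]; push_cast; ring
  rw [e1, div_le_iff₀ (by positivity)] at h
  have h4 : (((2 ^ s : ℕ) : ℝ)) * Real.log 2 ≤
      ((Nat.primeCounting (2 ^ s) : ℝ) * s + (s + 1)) * Real.log 2 := by nlinarith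
  have h5 : ((2 ^ s : ℕ) : ℝ) ≤ (Nat.primeCounting (2 ^ s) : ℝ) * s + (s + 1) :=
    le_of_mul_le_mul_right h4 hl2
  have h6 : 2 ^ s ≤ Nat.primeCounting (2 ^ s) * s + (s + 1) := by exact_mod_cast h5
  have h7 : 2 * s + 2 ≤ 2 ^ s := by
    clear h h4 h5 h6 e1 e2 hs0
    induction s, hs using Nat.le_induction with
    | base => norm_num
    | succ n hn ih => rw [pow_succ]; omega
  nlinarith

/-- Many products of `k` primes at most `y`: at least `choose (π + k - 1) k`. -/
theorem smooth_count (y k : ℕ) (hk : 1 ≤ k) :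
    ∃ S : Finset ℕ, (∀ m ∈ S, 1 ≤ m ∧ m ≤ y ^ k ∧ ∀ q, q.Prime → q ∣ m → q ≤ y) ∧
      (Nat.primeCounting y) ^ k ≤ S.card * k ^ k := by
  classical
  let P := {q : ℕ // q ∈ Nat.primesLE y}
  have hcard : Fintype.card P = Nat.primeCounting y := by
    rw [Fintype.card_coe, Nat.primeCounting, Nat.primeCounting', Nat.count_eq_card_filter_range]
    rfl
  let f : Sym P k → ℕ := fun t => (t.1.map fun q : P => (q : ℕ)).prod
  have hprime : ∀ q : P, Nat.Prime (q : ℕ) := fun q => (Nat.mem_primesLE.1 q.2).2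
  have hle : ∀ q : P, (q : ℕ) ≤ y := fun q => (Nat.mem_primesLE.1 q.2).1
  have hf : Function.Injective f := by
    intro t t' h
    have h1 : (t.1.map fun q : P => (q : ℕ)) = (t'.1.map fun q : P => (q : ℕ)) := by
      have e1 := Nat.primeFactorsList_unique (n := f t)
        (l := (t.1.map fun q : P => (q : ℕ)).toList)
        (by simp only [Multiset.prod_toList]; rfl)
        (by
          intro q hq
          simp only [Multiset.mem_toList, Multiset.mem_map] at hq
          obtain ⟨a, _, rfl⟩ := hq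
          exact hprime a)
      have e2 := Nat.primeFactorsList_unique (n := f t)
        (l := (t'.1.map fun q : P => (q : ℕ)).toList)
        (by simp only [Multiset.prod_toList]; exact h.symm)
        (by
          intro q hq
          simp only [Multiset.mem_toList, Multiset.mem_map] at hq
          obtain ⟨a, _, rfl⟩ := hq
          exact hprime a)
      have e3 := e1.trans e2.symm
      have e4 := Multiset.coe_eq_coe.2 e3
      simpa using e4
    exact Subtype.ext (Multiset.map_injective Subtype.val_injective h1)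
  refine ⟨Finset.univ.image f, ?_, ?_⟩
  · intro m hm
    obtain ⟨t, _, rfl⟩ := Finset.mem_image.1 hm
    have htc : Multiset.card t.1 = k := t.2
    refine ⟨?_, ?_, ?_⟩
    · apply Nat.one_le_iff_ne_zero.2
      apply Multiset.prod_ne_zero
      intro h0
      obtain ⟨a, _, ha⟩ := Multiset.mem_map.1 h0
      exact (hprime a).ne_zero ha
    · have h1 := Multiset.prod_le_pow_card (t.1.map fun q : P => (q : ℕ)) y (by
        intro x hx
        obtain ⟨a, _, rfl⟩ := Multiset.mem_map.1 hx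
        exact hle a)
      rw [Multiset.card_map, htc] at h1
      exact h1
    · intro q hq hqd
      obtain ⟨x, hx, hqx⟩ := hq.prime.exists_mem_multiset_dvd hqd
      obtain ⟨a, _, rfl⟩ := Multiset.mem_map.1 hx
      have := (Nat.prime_dvd_prime_iff_eq hq (hprime a)).1 hqx
      rw [this]; exact hle a
  · rw [Finset.card_image_of_injective _ hf, Finset.card_univ, Sym.card_sym_eq_choose, hcard]
    have h1 := Nat.pow_le_choose (α := ℚ) k (Nat.primeCounting y + k - 1)
    have h2 : Nat.primeCounting y + k - 1 + 1 - k = Nat.primeCounting y := by omega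
    rw [h2, div_le_iff₀ (by positivity)] at h1
    have h3 : (Nat.primeCounting y) ^ k ≤ (Nat.primeCounting y + k - 1).choose k * k.factorial := by
      exact_mod_cast h1
    exact h3.trans (Nat.mul_le_mul_left _ (Nat.factorial_le_pow k))

/-- Completeness. -/
theorem complete {p n s : ℕ} (hp : p.Prime) (hpn : p < 2 ^ n) (hs : (2 * n) ^ 4 ≤ 2 ^ s)
    (hy : (2 ^ s) ^ 2 < p) :
    p ≤ ((Finset.Icc (1 : ℕ) (2 ^ s)).lcm fun a : ℕ => orderOf (a : ZMod p)) ^ 2 := by
  classical
  have : Fact p.Prime := ⟨hp⟩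
  obtain ⟨y, hydef⟩ : ∃ y, y = 2 ^ s := ⟨_, rfl⟩
  rw [← hydef] at hs hy ⊢
  set L := (Finset.Icc (1 : ℕ) y).lcm fun a : ℕ => orderOf (a : ZMod p) with hLdef
  have hn : 1 ≤ n := by
    by_contra h
    have : n = 0 := by omega
    rw [this] at hpn
    have := hp.two_le
    omega
  have hs4 : 4 ≤ s := by
    by_contra h
    have h1 : 2 ^ s ≤ 2 ^ 3 := Nat.pow_le_pow_right (by norm_num) (by omega)
    have h2 : (2 * 1) ^ 4 ≤ (2 * n) ^ 4 := Nat.pow_le_pow_left (by omega) 4
    omega
  have hy1 : 1 < y := by rw [hydef]; exact Nat.one_lt_two_pow (by omega)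
  -- k
  set k := Nat.log y (p - 1) with hkdef
  have hp1 : p - 1 ≠ 0 := by have := hp.two_le; omega
  have hk1 : y ^ k ≤ p - 1 := Nat.pow_log_le_self y hp1
  have hk2 : p - 1 < y ^ (k + 1) := Nat.lt_pow_succ_log_self hy1 _
  have hk : 2 ≤ k := by
    by_contra h
    have h1 : y ^ (k + 1) ≤ y ^ 2 := Nat.pow_le_pow_right (by omega) (by omega)
    omega
  have hsk : s * k < n := by
    have h1 : 2 ^ (s * k) < 2 ^ n := by
      rw [pow_mul, ← hydef]
      omega
    exact (Nat.pow_lt_pow_iff_right (by norm_num)).1 h1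
  obtain ⟨S, hS, hScard⟩ := smooth_count y k (by omega)
  -- elements of S are L-th roots of unity
  have hyp : y < p := by nlinarith
  have hord_pos : ∀ a ∈ Finset.Icc 1 y, 0 < orderOf (a : ZMod p) := by
    intro a ha
    rw [Finset.mem_Icc] at ha
    have ha0 : (a : ZMod p) ≠ 0 := by
      intro h0
      have := Nat.le_of_dvd (by omega) ((ZMod.natCast_eq_zero_iff _ _).1 h0)
      omega
    exact Nat.pos_of_dvd_of_pos (ZMod.orderOf_dvd_card_sub_one ha0) (by have := hp.two_le; omega)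
  have hL0 : L ≠ 0 := by
    rw [hLdef, Ne, Finset.lcm_eq_zero_iff]
    rintro ⟨a, ha, h0⟩
    have := hord_pos a ha
    omega
  have hroot : ∀ m : ℕ, 1 ≤ m → (∀ q, q.Prime → q ∣ m → q ≤ y) → (m : ZMod p) ^ L = 1 := by
    intro m
    induction m using Nat.recOnMul with
    | zero => intro h; omega
    | one => intro _ _; simp
    | prime q hq =>
      intro _ h
      have h1 : q ∈ Finset.Icc 1 y := Finset.mem_Icc.2 ⟨hq.one_lt.le, h q hq dvd_rfl⟩
      have h2 : orderOf (q : ZMod p) ∣ L := Finset.dvd_lcm h1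
      exact orderOf_dvd_iff_pow_eq_one.1 h2
    | mul a b iha ihb =>
      intro h1 h2
      have ha : 1 ≤ a := Nat.one_le_iff_ne_zero.2 (by rintro rfl; simp at h1)
      have hb : 1 ≤ b := Nat.one_le_iff_ne_zero.2 (by rintro rfl; simp at h1)
      push_cast
      rw [mul_pow, iha ha fun q hq hd => h2 q hq (hd.mul_right _),
        ihb hb fun q hq hd => h2 q hq (hd.mul_left _), one_mul]
  have hSL : S.card ≤ L := by
    have hsub : S.image (fun m : ℕ => (m : ZMod p)) ⊆ (Polynomial.nthRoots L (1 : ZMod p)).toFinset := by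
      intro x hx
      obtain ⟨m, hm, rfl⟩ := Finset.mem_image.1 hx
      rw [Multiset.mem_toFinset, Polynomial.mem_nthRoots (Nat.pos_of_ne_zero hL0)]
      exact hroot m (hS m hm).1 (hS m hm).2.2
    have hinj : Set.InjOn (fun m : ℕ => (m : ZMod p)) (S : Set ℕ) := by
      intro a ha b hb hab
      have h1 := (hS a ha).2.1
      have h2 := (hS b hb).2.1
      have hab' : (a : ZMod p) = (b : ZMod p) := hab
      rw [ZMod.natCast_eq_natCast_iff] at hab'
      exact Nat.ModEq.eq_of_lt_of_lt hab' (by omega) (by omega)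
    calc S.card = (S.image (fun m : ℕ => (m : ZMod p))).card :=
          (Finset.card_image_of_injOn hinj).symm
      _ ≤ (Polynomial.nthRoots L (1 : ZMod p)).toFinset.card := Finset.card_le_card hsub
      _ ≤ Multiset.card (Polynomial.nthRoots L (1 : ZMod p)) := Multiset.toFinset_card_le _
      _ ≤ L := Polynomial.card_nthRoots L 1
  -- arithmetic
  have hpi := pi_two_pow (s := s) (by omega)
  rw [← hydef] at hpi
  have h1 : y ^ k ≤ L * (2 * n) ^ k := by
    calc y ^ k ≤ (2 * s * Nat.primeCounting y) ^ k := Nat.pow_le_pow_left hpi k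
      _ = (2 * s) ^ k * (Nat.primeCounting y) ^ k := mul_pow _ _ _
      _ ≤ (2 * s) ^ k * (S.card * k ^ k) := Nat.mul_le_mul_left _ hScard
      _ = S.card * (2 * (s * k)) ^ k := by
          rw [mul_pow 2 (s * k), mul_pow s k, mul_pow 2 s]; ring
      _ ≤ L * (2 * n) ^ k :=
          Nat.mul_le_mul hSL (Nat.pow_le_pow_left (by omega) k)
  have h2 : ((2 * n) ^ 4) ^ k ≤ y ^ k := Nat.pow_le_pow_left hs k
  have hy0 : 0 < y ^ k := by positivity
  have h3 : y ^ (4 * k) ≤ L ^ 4 * y ^ k := by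
    calc y ^ (4 * k) = (y ^ k) ^ 4 := by rw [← pow_mul, mul_comm 4 k]
      _ ≤ (L * (2 * n) ^ k) ^ 4 := Nat.pow_le_pow_left h1 4
      _ = L ^ 4 * ((2 * n) ^ 4) ^ k := by rw [mul_pow, ← pow_mul, ← pow_mul, mul_comm k 4]
      _ ≤ L ^ 4 * y ^ k := Nat.mul_le_mul_left _ h2
  have h4 : y ^ (3 * k) ≤ L ^ 4 := by
    have : y ^ (4 * k) = y ^ (3 * k) * y ^ k := by rw [← pow_add]; congr 1; ring
    rw [this] at h3
    exact Nat.le_of_mul_le_mul_right h3 hy0
  have h5 : (y ^ (k + 1)) ^ 2 ≤ (L ^ 2) ^ 2 := by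
    calc (y ^ (k + 1)) ^ 2 = y ^ (2 * (k + 1)) := by rw [← pow_mul, mul_comm (k + 1) 2]
      _ ≤ y ^ (3 * k) := Nat.pow_le_pow_right (by omega) (by omega)
      _ ≤ L ^ 4 := h4
      _ = (L ^ 2) ^ 2 := by rw [← pow_mul]
  have h6 : y ^ (k + 1) ≤ L ^ 2 := (Nat.pow_le_pow_iff_left (by norm_num)).1 h5
  omega

end Vale.Agent.H25.FK
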