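import Vale.Agent.H19.GAD.MainBlock
import Vale.Agent.H28.Nu01

/-!
# The one-shot block inequality for all generalized amplitude damping channels
(P358, piece (Z): from the block inequality `main_block` of helper19 to `ZClaim` of helper28)
-/

open Matrix Complex Set
open scoped ComplexOrder
open Vale.Agent.H28

namespace Vale.Agent.H25.GADZ

set_option linter.unusedSectionVars false

section general

variable {X : Type*} [Fintype X] [DecidableEq X]

theorem ent_smul {A : Matrix X X ℂ} (hA : A.PosSemidef) (t : ℝ) :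
    ent ((t : ℂ) • A) = t * ent A + Real.negMulLog t * A.trace.re := by
  obtain ⟨U, h1, h2, h3⟩ := spectral' hA.isHermitian
  set lam := hA.isHermitian.eigenvalues with hlam
  have e1 : (t : ℂ) • A = U * diagonal (fun i => ((t * lam i : ℝ) : ℂ)) * Uᴴ := by
    conv_lhs => rw [h3]
    have e : (diagonal (fun i => ((t * lam i : ℝ) : ℂ)) : Matrix X X ℂ)
        = (t : ℂ) • diagonal (fun i => (lam i : ℂ)) := by
      ext i j
      by_cases hij : i = j
      · subst hij; simp
      · simp [hij]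
    rw [e, Matrix.mul_smul, Matrix.smul_mul]
  have e2 : ent ((t : ℂ) • A) = ∑ i, Real.negMulLog (t * lam i) := by
    rw [e1, ent_conj h1, ent_diagonal]
  have e3 : ent A = ∑ i, Real.negMulLog (lam i) := ent_eq hA.isHermitian
  have e4 : A.trace.re = ∑ i, lam i := trace_re_eq hA.isHermitian
  rw [e2, e3, e4]
  simp only [Real.negMulLog_mul, Finset.sum_add_distrib, ← Finset.mul_sum, ← Finset.sum_mul]
  ring

/-- normalised form of `ent_smul` -/
theorem ent_smul_sub {A : Matrix X X ℂ} (hA : A.PosSemidef) (t : ℝ) :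
    ent ((t : ℂ) • A) - Real.negMulLog (t * A.trace.re)
      = t * (ent A - Real.negMulLog A.trace.re) := by
  rw [ent_smul hA t, Real.negMulLog_mul]
  ring

theorem trace_smul_re (t : ℝ) (A : Matrix X X ℂ) :
    ((t : ℂ) • A).trace.re = t * A.trace.re := by
  rw [trace_smul, smul_eq_mul, Complex.re_ofReal_mul]

/-- star inequality: entropy of a sum of two positive semidefinite matrices -/
theorem ent_add_ge {U V : Matrix X X ℂ} (hU : U.PosSemidef) (hV : V.PosSemidef) :
    ent U + ent V + Real.negMulLog (U.trace.re + V.trace.re)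
      ≤ ent (U + V) + Real.negMulLog U.trace.re + Real.negMulLog V.trace.re := by
  have hW := hU.add hV
  obtain ⟨P, h1, h2, h3⟩ := spectral' hW.isHermitian
  set w := hW.isHermitian.eigenvalues with hw
  have hU' : (Pᴴ * U * P).PosSemidef := hU.conjTranspose_mul_mul_same P
  have hV' : (Pᴴ * V * P).PosSemidef := hV.conjTranspose_mul_mul_same P
  have eU : ent (Pᴴ * U * P) = ent U := ent_conj h2
  have eV : ent (Pᴴ * V * P) = ent V := ent_conj h2
  have tU : (Pᴴ * U * P).trace = U.trace := by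
    rw [Matrix.trace_mul_comm, ← Matrix.mul_assoc, h2, Matrix.one_mul]
  have tV : (Pᴴ * V * P).trace = V.trace := by
    rw [Matrix.trace_mul_comm, ← Matrix.mul_assoc, h2, Matrix.one_mul]
  have hsum : Pᴴ * U * P + Pᴴ * V * P = diagonal (fun k => (w k : ℂ)) := by
    rw [← Matrix.add_mul, ← Matrix.mul_add]
    conv_lhs => rw [h3]
    calc Pᴴ * (P * diagonal (fun k => (w k : ℂ)) * Pᴴ) * P
        = (Pᴴ * P) * diagonal (fun k => (w k : ℂ)) * (Pᴴ * P) := by
          simp only [Matrix.mul_assoc]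
      _ = _ := by rw [h1]; simp
  set u : X → ℝ := fun k => ((Pᴴ * U * P) k k).re with hu
  set v : X → ℝ := fun k => ((Pᴴ * V * P) k k).re with hv
  have hu0 : ∀ k, 0 ≤ u k := fun k => (Complex.nonneg_iff.1 (hU'.diag_nonneg (i := k))).1
  have hv0 : ∀ k, 0 ≤ v k := fun k => (Complex.nonneg_iff.1 (hV'.diag_nonneg (i := k))).1
  have huv : ∀ k, u k + v k = w k := by
    intro k
    have := congrFun (congrFun hsum k) k
    rw [Matrix.add_apply, diagonal_apply_eq] at this
    have h4 := congrArg Complex.re this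
    rw [Complex.add_re, Complex.ofReal_re] at h4
    exact h4
  have su : ∑ k, u k = U.trace.re := by
    rw [← tU, Matrix.trace, Complex.re_sum]; rfl
  have sv : ∑ k, v k = V.trace.re := by
    rw [← tV, Matrix.trace, Complex.re_sum]; rfl
  have bU : ent U ≤ ∑ k, Real.negMulLog (u k) := by rw [← eU]; exact ent_le_diag hU'
  have bV : ent V ≤ ∑ k, Real.negMulLog (v k) := by rw [← eV]; exact ent_le_diag hV'
  have eW : ent (U + V) = ∑ k, Real.negMulLog (u k + v k) := by
    rw [ent_eq hW.isHermitian]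
    exact Finset.sum_congr rfl fun k _ => by rw [huv k]
  have hL := Lam_sum Finset.univ u v (fun _ => 0) hu0 hv0 (fun _ => le_rfl)
  have hLam : ∀ a b : ℝ, Lam a b 0
      = Real.negMulLog (a + b) - Real.negMulLog a - Real.negMulLog b := by
    intro a b
    unfold Lam
    rw [pairEnt_eq (u := a + b) (v := 0) (by ring) (by ring)]
    simp
  simp only [hLam, Finset.sum_const_zero, Finset.sum_sub_distrib] at hL
  rw [su, sv] at hL
  rw [eW]
  linarith

theorem eq_zero_of_trace {A : Matrix X X ℂ} (hA : A.PosSemidef) (h : A.trace.re = 0) : A = 0 := by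
  have h1 : A.trace = 0 := by
    have := Complex.nonneg_iff.1 hA.trace_nonneg
    exact Complex.ext h this.2.symm
  exact hA.trace_eq_zero_iff.mp h1

/-- diagonal scaling of a positive block matrix -/
theorem scale_blocks {α Y β : Matrix X X ℂ} (hρ : (fromBlocks α Y Yᴴ β).PosSemidef)
    {a η : ℝ} (ha : 0 < a) (hη : 0 ≤ η) :
    (fromBlocks ((a : ℂ) • α) ((Real.sqrt η : ℂ) • Y) ((Real.sqrt η : ℂ) • Y)ᴴ
      (((η / a : ℝ) : ℂ) • β)).PosSemidef := by
  have h := hρ.mul_mul_conjTranspose_same (fromBlocks ((Real.sqrt a : ℂ) • (1 : Matrix X X ℂ)) 0 0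
    (((Real.sqrt η / Real.sqrt a : ℝ) : ℂ) • (1 : Matrix X X ℂ)))
  have hsa : Real.sqrt a ≠ 0 := by positivity
  have e1 : Real.sqrt a * Real.sqrt a = a := Real.mul_self_sqrt ha.le
  have e2 : Real.sqrt η * Real.sqrt η = η := Real.mul_self_sqrt hη
  have h1 : ((Real.sqrt a : ℝ) : ℂ) * ((Real.sqrt a : ℝ) : ℂ) = (a : ℂ) := by
    rw [← Complex.ofReal_mul, e1]
  have h2 : ((Real.sqrt η / Real.sqrt a : ℝ) : ℂ) * ((Real.sqrt η / Real.sqrt a : ℝ) : ℂ)
      = ((η / a : ℝ) : ℂ) := by
    rw [← Complex.ofReal_mul, div_mul_div_comm, e1, e2]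
  have h3 : ((Real.sqrt η / Real.sqrt a : ℝ) : ℂ) * ((Real.sqrt a : ℝ) : ℂ)
      = ((Real.sqrt η : ℝ) : ℂ) := by
    rw [← Complex.ofReal_mul, div_mul_cancel₀ _ hsa]
  have h4 : ((Real.sqrt a : ℝ) : ℂ) * ((Real.sqrt η / Real.sqrt a : ℝ) : ℂ)
      = ((Real.sqrt η : ℝ) : ℂ) := by
    rw [mul_comm, h3]
  have s1 : star ((Real.sqrt a : ℝ) : ℂ) = ((Real.sqrt a : ℝ) : ℂ) := Complex.conj_ofReal _
  have s2 : star ((Real.sqrt η / Real.sqrt a : ℝ) : ℂ) = ((Real.sqrt η / Real.sqrt a : ℝ) : ℂ) :=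
    Complex.conj_ofReal _
  have s3 : star ((Real.sqrt η : ℝ) : ℂ) = ((Real.sqrt η : ℝ) : ℂ) := Complex.conj_ofReal _
  simp only [fromBlocks_conjTranspose, fromBlocks_multiply, conjTranspose_smul, conjTranspose_one,
    conjTranspose_zero, Matrix.mul_zero, Matrix.zero_mul, add_zero, zero_add, Matrix.mul_smul,
    Matrix.smul_mul, Matrix.mul_one, Matrix.one_mul, smul_smul, s1, s2, h1, h2, h3,
    h4] at h
  rw [conjTranspose_smul, s3]
  exact h

/-- generic case -/
theorem zgen {α Y β : Matrix X X ℂ} {γ ν : ℝ} (hγ0 : 0 < γ) (hγ1 : γ < 1) (hν0 : 0 < ν)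
    (hν1 : ν < 1) (hρ : (fromBlocks α Y Yᴴ β).PosSemidef) (hp : 0 < α.trace.re)
    (hq : 0 < β.trace.re) :
    ent α + ent β + pairEnt (α.trace.re + β.trace.re)
      ((1 - γ * ν) * (γ * ν) * α.trace.re ^ 2
        + 2 * (γ * (1 - ν)) * (γ * ν) * (α.trace.re * β.trace.re)
        + (γ * (1 - ν)) * (1 - γ + γ * ν) * β.trace.re ^ 2)
      ≤ ent (outG γ ν α Y β) + Real.negMulLog α.trace.re + Real.negMulLog β.trace.re := by
  have hα : α.PosSemidef := hρ.submatrix (Sum.inl : X → X ⊕ X)
  have hβ : β.PosSemidef := hρ.submatrix (Sum.inr : X → X ⊕ X)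
  obtain ⟨a, ha⟩ : ∃ a : ℝ, a = 1 - γ * ν := ⟨_, rfl⟩
  obtain ⟨b, hb⟩ : ∃ b : ℝ, b = γ * (1 - ν) := ⟨_, rfl⟩
  obtain ⟨c, hc⟩ : ∃ c : ℝ, c = 1 - γ + γ * ν := ⟨_, rfl⟩
  obtain ⟨d, hd⟩ : ∃ d : ℝ, d = γ * ν := ⟨_, rfl⟩
  obtain ⟨η, hη⟩ : ∃ η : ℝ, η = 1 - γ := ⟨_, rfl⟩
  have hη0 : 0 < η := by rw [hη]; linarith
  have hd0 : 0 < d := by rw [hd]; positivity
  have hb0 : 0 < b := by rw [hb]; exact mul_pos hγ0 (by linarith)
  have ha0 : 0 < a := by rw [ha]; nlinarith
  have had : a + d = 1 := by rw [ha, hd]; ring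
  have hbc : b + c = 1 := by rw [hb, hc]; ring
  have hdet : a * c - b * d = η := by rw [ha, hb, hc, hd, hη]; ring
  obtain ⟨p, hpd⟩ : ∃ p : ℝ, p = α.trace.re := ⟨_, rfl⟩
  obtain ⟨q, hqd⟩ : ∃ q : ℝ, q = β.trace.re := ⟨_, rfl⟩
  have hD : ((b : ℂ) • β).PosSemidef := smul_posSemidef hβ hb0.le
  have hU : ((d : ℂ) • α).PosSemidef := smul_posSemidef hα hd0.le
  have hbd : 0 < b * d / a := by positivity
  have hV : (((b * d / a : ℝ) : ℂ) • β).PosSemidef := smul_posSemidef hβ hbd.le
  have hE := hU.add hV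
  have tE : ((d : ℂ) • α + ((b * d / a : ℝ) : ℂ) • β).trace.re = d * p + b * d / a * q := by
    rw [trace_add, Complex.add_re, trace_smul_re, trace_smul_re, hpd, hqd]
  have tD : ((b : ℂ) • β).trace.re = b * q := by rw [trace_smul_re, hqd]
  have tα : ((a : ℂ) • α).trace.re = a * p := by rw [trace_smul_re, hpd]
  have tβ : (((η / a : ℝ) : ℂ) • β).trace.re = η / a * q := by rw [trace_smul_re, hqd]
  have hηa : 0 < η / a := by positivity
  rw [← hpd] at hp
  rw [← hqd] at hq
  have key := Vale.Agent.H19.GAD.main_block (scale_blocks hρ ha0 hη0.le) hD hE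
    (by rw [tα]; positivity) (by rw [tβ]; positivity) (by rw [tD]; positivity)
    (by rw [tE]; positivity)
  rw [tα, tβ, tD, tE] at key
  have hblk : fromBlocks ((a : ℂ) • α + (b : ℂ) • β) ((Real.sqrt η : ℂ) • Y)
      ((Real.sqrt η : ℂ) • Y)ᴴ
      (((η / a : ℝ) : ℂ) • β + ((d : ℂ) • α + ((b * d / a : ℝ) : ℂ) • β))
      = outG γ ν α Y β := by
    unfold outG
    have s3 : star ((Real.sqrt η : ℝ) : ℂ) = ((Real.sqrt η : ℝ) : ℂ) := Complex.conj_ofReal _
    have e1 : (((η / a : ℝ) : ℂ) • β + ((d : ℂ) • α + ((b * d / a : ℝ) : ℂ) • β))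
        = (d : ℂ) • α + (c : ℂ) • β := by
      rw [add_left_comm, ← add_smul, ← Complex.ofReal_add]
      have : η / a + b * d / a = c := by
        rw [← add_div, ← hdet]
        field_simp
        ring
      rw [this]
    rw [e1, conjTranspose_smul, s3, ha, hb, hc, hd, hη]
  rw [hblk] at key
  have hσ : a * p + b * q + η / a * q + (d * p + b * d / a * q) = p + q := by
    have h1 : η / a * q + b * d / a * q = c * q := by
      rw [← add_mul, ← add_div, ← hdet]
      field_simp
      ring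
    have h2 : a * p + d * p = p := by rw [← add_mul, had, one_mul]
    have h3 : b * q + c * q = q := by rw [← add_mul, hbc, one_mul]
    linarith
  have hπ : a * p * (d * p + b * d / a * q) + η / a * q * (b * q)
      + b * q * (d * p + b * d / a * q)
      = a * d * p ^ 2 + 2 * b * d * (p * q) + b * c * q ^ 2 := by
    have h1 : c = (η + b * d) / a := by
      rw [← hdet]; field_simp; ring
    rw [h1]
    field_simp
    ring
  rw [hσ, hπ] at key
  have k1 := ent_smul_sub hα a
  have k2 := ent_smul_sub hβ (η / a)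
  have k3 := ent_smul_sub hβ b
  have k4 := ent_smul_sub hα d
  have k5 := ent_smul_sub hβ (b * d / a)
  rw [← hpd] at k1 k4
  rw [← hqd] at k2 k3 k5
  have k6 := ent_add_ge hU hV
  rw [trace_smul_re, trace_smul_re, ← hpd, ← hqd] at k6
  have k7 : a * (ent α - Real.negMulLog p) + d * (ent α - Real.negMulLog p)
      = ent α - Real.negMulLog p := by rw [← add_mul, had, one_mul]
  have k8 : η / a * (ent β - Real.negMulLog q) + b * (ent β - Real.negMulLog q)
      + b * d / a * (ent β - Real.negMulLog q) = ent β - Real.negMulLog q := by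
    rw [← add_mul, ← add_mul]
    have : η / a + b + b * d / a = 1 := by
      rw [← hbc, ← hdet]; field_simp; ring
    rw [this, one_mul]
  rw [← hpd, ← hqd, ← ha, ← hb, ← hc, ← hd]
  linarith

end general

/-- the scalar entropy function of the channel -/
noncomputable def gG (γ ν : ℝ) (q : ℝ) : ℝ :=
  pairEnt 1 (((1 - γ) * q + γ * ν) * (1 - ((1 - γ) * q + γ * ν)) - (1 - γ) * (q * (1 - q)))

theorem zclaim_all {γ ν : ℝ} (hγ0 : 0 ≤ γ) (hγ1 : γ ≤ 1) (hν0 : 0 ≤ ν) (hν1 : ν ≤ 1) :
    ZClaim γ ν (fun q => pairEnt 1 (((1 - γ) * q + γ * ν) * (1 - ((1 - γ) * q + γ * ν))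
      - (1 - γ) * (q * (1 - q)))) := by
  -- `ν = 0`
  rcases hν0.eq_or_lt with h0 | h0
  · subst h0
    have := zclaim_zero hγ0 hγ1
    convert this using 4
    ring
  -- `ν = 1`
  rcases hν1.eq_or_lt with h1 | h1
  · subst h1
    have := zclaim_one hγ0 hγ1
    convert this using 4
    ring
  -- `γ = 0`
  rcases hγ0.eq_or_lt with h2 | h2
  · subst h2
    intro n α Y β hρ
    have := zclaim_zero le_rfl zero_le_one n α Y β hρ
    have e : outG 0 ν α Y β = outG 0 0 α Y β := by
      unfold outG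
      simp
    rw [e]
    convert this using 6
    ring_nf
  intro n α Y β hρ
  have hα : α.PosSemidef := hρ.submatrix (Sum.inl : Bits n → Bits n ⊕ Bits n)
  have hβ : β.PosSemidef := hρ.submatrix (Sum.inr : Bits n → Bits n ⊕ Bits n)
  have hp : 0 ≤ α.trace.re := (Complex.nonneg_iff.1 hα.trace_nonneg).1
  have hq : 0 ≤ β.trace.re := (Complex.nonneg_iff.1 hβ.trace_nonneg).1
  -- `γ = 1`
  rcases hγ1.eq_or_lt with h3 | h3
  · subst h3
    have e : outG 1 ν α Y β
        = fromBlocks (((1 - ν : ℝ) : ℂ) • (α + β)) 0 0 (((ν : ℝ) : ℂ) • (α + β)) := by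
      unfold outG
      simp [smul_add]
    have hαβ := hα.add hβ
    have k1 := ent_smul hαβ (1 - ν)
    have k2 := ent_smul hαβ ν
    have k3 := ent_add_ge hα hβ
    have k4 : pairEnt 1 (((1 - 1 : ℝ) * (β.trace.re / (α.trace.re + β.trace.re)) + 1 * ν)
        * (1 - ((1 - 1) * (β.trace.re / (α.trace.re + β.trace.re)) + 1 * ν))
        - (1 - 1) * ((β.trace.re / (α.trace.re + β.trace.re))
          * (1 - (β.trace.re / (α.trace.re + β.trace.re)))))
        = Real.negMulLog ν + Real.negMulLog (1 - ν) :=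
      pairEnt_eq (by ring) (by ring)
    rw [e, ent_fromBlocks_diag, k1, k2]
    simp only
    rw [k4, trace_add, Complex.add_re]
    have k5 : (1 - ν) * ent (α + β) + ν * ent (α + β) = ent (α + β) := by ring
    nlinarith
  -- degenerate traces
  rcases hp.eq_or_lt with h4 | h4
  · have hα0 : α = 0 := eq_zero_of_trace hα h4.symm
    have hY0 : Y = 0 := by
      ext i j
      have := posSemidef_col_zero hρ (i := Sum.inl i) (by simp [hα0]) (Sum.inr j)
      simp only [fromBlocks_apply₂₁, conjTranspose_apply] at this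
      simpa using this
    have e : outG γ ν α Y β
        = fromBlocks (((γ * (1 - ν) : ℝ) : ℂ) • β) 0 0 (((1 - γ + γ * ν : ℝ) : ℂ) • β) := by
      unfold outG
      rw [hα0, hY0]
      simp
    have k1 := ent_smul hβ (γ * (1 - ν))
    have k2 := ent_smul hβ (1 - γ + γ * ν)
    rw [e, ent_fromBlocks_diag, k1, k2]
    have hα0' : ent α = 0 := by
      have := ent_smul_sub hα 0
      rw [hα0] at this ⊢
      simpa using this
    rw [hα0', ← h4]
    simp only [zero_add]
    rcases hq.eq_or_lt with h5 | h5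
    · rw [← h5]
      simp
      have : γ * (1 - ν) * ent β + (1 - γ + γ * ν) * ent β = ent β := by ring
      linarith
    · rw [div_self h5.ne']
      have k4 : pairEnt 1 (((1 - γ) * 1 + γ * ν) * (1 - ((1 - γ) * 1 + γ * ν))
          - (1 - γ) * (1 * (1 - 1)))
          = Real.negMulLog (γ * (1 - ν)) + Real.negMulLog (1 - γ + γ * ν) :=
        pairEnt_eq (by ring) (by ring)
      rw [k4]
      have k5 : γ * (1 - ν) * ent β + (1 - γ + γ * ν) * ent β = ent β := by ring
      simp only [Real.negMulLog_zero]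
      nlinarith
  rcases hq.eq_or_lt with h5 | h5
  · have hβ0 : β = 0 := eq_zero_of_trace hβ h5.symm
    have hY0 : Y = 0 := by
      ext i j
      have := posSemidef_col_zero hρ (i := Sum.inr j) (by simp [hβ0]) (Sum.inl i)
      simpa using this
    have e : outG γ ν α Y β
        = fromBlocks (((1 - γ * ν : ℝ) : ℂ) • α) 0 0 (((γ * ν : ℝ) : ℂ) • α) := by
      unfold outG
      rw [hβ0, hY0]
      simp
    have k1 := ent_smul hα (1 - γ * ν)
    have k2 := ent_smul hα (γ * ν)
    rw [e, ent_fromBlocks_diag, k1, k2]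
    have hβ0' : ent β = 0 := by
      have := ent_smul_sub hβ 0
      rw [hβ0] at this ⊢
      simpa using this
    rw [hβ0', ← h5]
    simp only [add_zero, zero_div]
    have k4 : pairEnt 1 (((1 - γ) * 0 + γ * ν) * (1 - ((1 - γ) * 0 + γ * ν))
        - (1 - γ) * (0 * (1 - 0)))
        = Real.negMulLog (1 - γ * ν) + Real.negMulLog (γ * ν) :=
      pairEnt_eq (by ring) (by ring)
    rw [k4]
    have k5 : (1 - γ * ν) * ent α + γ * ν * ent α = ent α := by ring
    simp only [Real.negMulLog_zero]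
    nlinarith
  -- generic case
  have key := zgen h2 h3 h0 h1 hρ h4 h5
  have hpq : 0 < α.trace.re + β.trace.re := by positivity
  have e := pairEnt_smul (π := ((1 - γ) * (β.trace.re / (α.trace.re + β.trace.re)) + γ * ν)
      * (1 - ((1 - γ) * (β.trace.re / (α.trace.re + β.trace.re)) + γ * ν))
      - (1 - γ) * ((β.trace.re / (α.trace.re + β.trace.re))
        * (1 - (β.trace.re / (α.trace.re + β.trace.re))))) hpq.le
  have e2 : (α.trace.re + β.trace.re) ^ 2
      * (((1 - γ) * (β.trace.re / (α.trace.re + β.trace.re)) + γ * ν)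
      * (1 - ((1 - γ) * (β.trace.re / (α.trace.re + β.trace.re)) + γ * ν))
      - (1 - γ) * ((β.trace.re / (α.trace.re + β.trace.re))
        * (1 - (β.trace.re / (α.trace.re + β.trace.re)))))
      = (1 - γ * ν) * (γ * ν) * α.trace.re ^ 2
        + 2 * (γ * (1 - ν)) * (γ * ν) * (α.trace.re * β.trace.re)
        + (γ * (1 - ν)) * (1 - γ + γ * ν) * β.trace.re ^ 2 := by
    field_simp
    ring
  rw [e2] at e
  rw [e] at key
  exact key

end Vale.Agent.H25.GADZ
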