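import Mathlib

open Finset

namespace Vale.Agent.H25.P308

variable {V : Type*} [DecidableEq V]

/-- partner involutions -/
def Inv (G : SimpleGraph V) (s : V → V) : Prop :=
  (∀ v, s (s v) = v) ∧ ∀ v, s v ≠ v → G.Adj v (s v)

/-- alternating chain from `u` to `v` through the partner function `s`. -/
def Aug (G : SimpleGraph V) (s : V → V) : V → V → List V → Prop
  | u, v, [] => G.Adj u v
  | u, v, a :: l => G.Adj u a ∧ Aug G s (s a) v l

def Valid (s : V → V) (l : List V) : Prop :=
  (l.map (fun a => s(a, s a))).Nodup ∧ ∀ a ∈ l, s a ≠ a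

omit [DecidableEq V] in
theorem aug_append (G : SimpleGraph V) (s : V → V) (u v a : V) (A B : List V) :
    Aug G s u v (A ++ a :: B) ↔ Aug G s u a A ∧ Aug G s (s a) v B := by
  induction A generalizing u with
  | nil => simp [Aug]
  | cons x A ih => simp [Aug, ih, and_assoc]

omit [DecidableEq V] in
theorem aug_congr (G : SimpleGraph V) (s s' : V → V) (u v : V) (l : List V)
    (h : ∀ a ∈ l, s a = s' a) : Aug G s u v l ↔ Aug G s' u v l := by
  induction l generalizing u with
  | nil => simp [Aug]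
  | cons x A ih =>
    have hx := h x (by simp)
    simp only [Aug, hx]
    rw [ih _ (fun a ha => h a (by simp [ha]))]

omit [DecidableEq V] in
/-- the shortcut -/
theorem shortcut (G : SimpleGraph V) (s : V → V) (hs : ∀ v, s (s v) = v) (u v ai aj al : V)
    (A B C D : List V)
    (h : Aug G s u v (A ++ ai :: (B ++ aj :: (C ++ al :: D))))
    (hv : Valid s (A ++ ai :: (B ++ aj :: (C ++ al :: D))))
    (h1 : G.Adj (s ai) (s aj)) (h2 : G.Adj aj al) :
    Aug G s u v (A ++ ai :: s aj :: al :: D) ∧ Valid s (A ++ ai :: s aj :: al :: D) := by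
  constructor
  · rw [aug_append] at h ⊢
    obtain ⟨hA, h⟩ := h
    rw [aug_append] at h
    obtain ⟨hB, h⟩ := h
    rw [aug_append] at h
    obtain ⟨hC, hD⟩ := h
    refine ⟨hA, ?_⟩
    simp only [Aug]
    refine ⟨h1, ?_, hD⟩
    rw [hs]; exact h2
  · obtain ⟨hn, hf⟩ := hv
    constructor
    · refine List.Nodup.sublist ?_ hn
      have e : s(s aj, s (s aj)) = s(aj, s aj) := by
        rw [hs]; exact Sym2.eq_swap
      simp only [List.map_append, List.map_cons, e]
      refine List.Sublist.append (List.Sublist.refl _) ?_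
      refine List.Sublist.cons_cons _ ?_
      refine List.Sublist.trans ?_ (List.sublist_append_right _ _)
      refine List.Sublist.cons_cons _ ?_
      exact List.sublist_append_right _ _
    · intro a ha
      simp only [List.mem_append, List.mem_cons] at ha hf
      rcases ha with ha | rfl | rfl | rfl | ha
      · exact hf a (by tauto)
      · exact hf a (by tauto)
      · rw [hs]; exact (hf aj (by tauto)).symm
      · exact hf a (by tauto)
      · exact hf a (by tauto)

theorem split_two {α : Type*} (l : List α) (i j : ℕ) (hij : i < j) (hj : j < l.length) :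
    l = l.take i ++ l[i] :: ((l.take j).drop (i+1) ++ l[j] :: l.drop (j+1)) := by
  have h1 : l = l.take i ++ l[i] :: l.drop (i+1) := by
    rw [List.getElem_cons_drop, List.take_append_drop]
  have h2 : l.drop (i+1) = (l.take j).drop (i+1) ++ l[j] :: l.drop (j+1) := by
    have h3 : l = l.take j ++ l[j] :: l.drop (j+1) := by
      rw [List.getElem_cons_drop, List.take_append_drop]
    conv_lhs => rw [h3]
    rw [List.drop_append_of_le_length]
    simp; omega
  rw [← h2]; exact h1

omit [DecidableEq V] in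
/-- second shortcut -/
theorem shortcut2 (G : SimpleGraph V) (s : V → V) (u v ai al : V)
    (A B D : List V)
    (h : Aug G s u v (A ++ ai :: (B ++ al :: D)))
    (hv : Valid s (A ++ ai :: (B ++ al :: D)))
    (h1 : G.Adj (s ai) al) :
    Aug G s u v (A ++ ai :: al :: D) ∧ Valid s (A ++ ai :: al :: D) := by
  constructor
  · rw [aug_append] at h ⊢
    obtain ⟨hA, h⟩ := h
    rw [aug_append] at h
    obtain ⟨hB, h⟩ := h
    refine ⟨hA, ?_⟩
    simp only [Aug]
    exact ⟨h1, h⟩
  · obtain ⟨hn, hf⟩ := hv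
    constructor
    · refine List.Nodup.sublist ?_ hn
      simp only [List.map_append, List.map_cons]
      refine List.Sublist.append (List.Sublist.refl _) ?_
      refine List.Sublist.cons_cons _ ?_
      exact List.sublist_append_right _ _
    · intro a ha
      simp only [List.mem_append, List.mem_cons] at ha hf
      rcases ha with ha | rfl | rfl | ha
      · exact hf a (by tauto)
      · exact hf a (by tauto)
      · exact hf a (by tauto)
      · exact hf a (by tauto)

/-- `G` has a half-induced matching of size `m`. -/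
def HasHalf (G : SimpleGraph V) (m : ℕ) : Prop :=
  ∃ a b : Fin m → V, (∀ i, G.Adj (b i) (a i)) ∧ (∀ i j, i ≠ j → ¬ G.Adj (b i) (b j)) ∧
    (∀ i j, i < j → ¬ G.Adj (b i) (a j))

omit [DecidableEq V] in
/-- A shortest augmenting chain is short when there is no large half-induced matching. -/
theorem short (G : SimpleGraph V) (k : ℕ)
    (hG : ¬ HasHalf G (k+1)) (s : V → V) (hs : Inv G s)
    (u v : V) (l : List V) (hl : Aug G s u v l) (hv : Valid s l)
    (hmin : ∀ l', Aug G s u v l' → Valid s l' → l.length ≤ l'.length) :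
    l.length ≤ 4 * k := by
  by_contra hcon
  push Not at hcon
  have hb : ∀ m ∈ range (2*k+1), 2*m < l.length := by
    intro m hm; simp at hm; omega
  obtain ⟨a, ha⟩ : ∃ a : ℕ → V, ∀ m ∈ range (2*k+1), ∃ h : 2*m < l.length, a m = l[2*m] := by
    refine ⟨fun m => if h : 2*m < l.length then l[2*m] else u, ?_⟩
    intro m hm
    refine ⟨hb m hm, ?_⟩
    simp only []; rw [dif_pos (hb m hm)]
  have hadj : ∀ m ∈ range (2*k+1), G.Adj (s (a m)) (a m) := by
    intro m hm
    obtain ⟨h1, e1⟩ := ha m hm
    have : a m ∈ l := by rw [e1]; exact List.getElem_mem _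
    exact (hs.2 _ (hv.2 _ this)).symm
  have key0 : ∀ m ∈ range (2*k+1), ∀ m'' ∈ range (2*k+1), m < m'' →
      ¬ G.Adj (s (a m)) (a m'') := by
    intro m hm m'' hm'' hlt hadj1
    obtain ⟨h1, e1⟩ := ha m hm
    obtain ⟨h3, e3⟩ := ha m'' hm''
    have hsp := split_two l (2*m) (2*m'') (by omega) h3
    rw [← e1, ← e3] at hsp
    have hl' := hl
    have hv' := hv
    rw [hsp] at hl' hv'
    obtain ⟨hnew, hnewv⟩ := shortcut2 G s u v (a m) (a m'') _ _ _ hl' hv' hadj1
    have hlen := hmin _ hnew hnewv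
    have hlen2 := congrArg List.length hsp
    simp only [List.length_append, List.length_cons, List.length_take, List.length_drop] at hlen hlen2
    omega
  -- key: no two-sided index
  have key : ∀ m ∈ range (2*k+1), ¬ ((∃ m' ∈ range (2*k+1), m' < m ∧ G.Adj (s (a m')) (s (a m))) ∧
      (∃ m'' ∈ range (2*k+1), m < m'' ∧ G.Adj (a m) (a m''))) := by
    rintro m hm ⟨⟨m', hm', hlt, hadj1⟩, ⟨m'', hm'', hlt2, hadj2⟩⟩
    obtain ⟨h1, e1⟩ := ha m hm
    obtain ⟨h2, e2⟩ := ha m' hm'
    obtain ⟨h3, e3⟩ := ha m'' hm''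
    have hsp := split_two l (2*m) (2*m'') (by omega) h3
    -- split the first part again
    set A := l.take (2*m) with hA
    have hAlen : A.length = 2*m := by simp [hA]; omega
    have hA1 : 2*m' < A.length := by omega
    have hA2 : A = A.take (2*m') ++ A[2*m'] :: A.drop (2*m'+1) := by
      rw [List.getElem_cons_drop, List.take_append_drop]
    have hA3 : A[2*m'] = l[2*m'] := by simp [hA]
    have hfull : l = A.take (2*m') ++ a m' :: (A.drop (2*m'+1) ++ a m ::
        ((l.take (2*m'')).drop (2*m+1) ++ a m'' :: l.drop (2*m''+1))) := by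
      rw [e1, e2, e3]
      rw [← hA3]
      have haux : ∀ Y : List V, A ++ Y =
          A.take (2*m') ++ A[2*m'] :: (A.drop (2*m'+1) ++ Y) := by
        intro Y
        have := congrArg (fun z => z ++ Y) hA2
        simpa only [List.append_assoc, List.cons_append] using this
      rw [← haux]
      exact hsp
    have hl' := hl
    have hv' := hv
    rw [hfull] at hl' hv'
    obtain ⟨hnew, hnewv⟩ := shortcut G s hs.1 u v (a m') (a m) (a m'') _ _ _ _ hl' hv' hadj1 hadj2
    have hlen := hmin _ hnew hnewv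
    have hlen2 := congrArg List.length hfull
    simp only [List.length_append, List.length_cons, List.length_take, List.length_drop] at hlen hlen2
    omega
  classical
  obtain ⟨J1, hJ1⟩ : ∃ J1 : Finset ℕ, ∀ m, m ∈ J1 ↔ m ∈ range (2*k+1) ∧
      ∀ m' ∈ range (2*k+1), m' < m → ¬ G.Adj (s (a m')) (s (a m)) :=
    ⟨(range (2*k+1)).filter (fun m => ∀ m' ∈ range (2*k+1), m' < m → ¬ G.Adj (s (a m')) (s (a m))),
      fun m => by simp only [mem_filter]⟩
  obtain ⟨J2, hJ2⟩ : ∃ J2 : Finset ℕ, ∀ m, m ∈ J2 ↔ m ∈ range (2*k+1) ∧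
      ∀ m'' ∈ range (2*k+1), m < m'' → ¬ G.Adj (a m) (a m'') :=
    ⟨(range (2*k+1)).filter (fun m => ∀ m'' ∈ range (2*k+1), m < m'' → ¬ G.Adj (a m) (a m'')),
      fun m => by simp only [mem_filter]⟩
  have hcover : range (2*k+1) ⊆ J1 ∪ J2 := by
    intro m hm
    have := key m hm
    simp only [mem_union, hJ1, hJ2, hm, true_and]
    by_contra hne
    push Not at hne
    obtain ⟨⟨m', h1, h2, h3⟩, ⟨m'', h4, h5, h6⟩⟩ := hne
    exact this ⟨⟨m', h1, h2, h3⟩, ⟨m'', h4, h5, h6⟩⟩
  have hcard := card_le_card hcover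
  have hcard2 := card_union_le J1 J2
  rw [card_range] at hcard
  have hor : k + 1 ≤ J1.card ∨ k + 1 ≤ J2.card := by omega
  rcases hor with h | h
  · obtain ⟨T, hTs, hTc⟩ := Finset.exists_subset_card_eq h
    apply hG
    obtain ⟨e, he0⟩ : ∃ e : Fin (k+1) ↪o ℕ, ∀ i, e i ∈ T :=
      ⟨T.orderEmbOfFin hTc, T.orderEmbOfFin_mem hTc⟩
    have he : ∀ i, e i ∈ J1 := fun i => hTs (he0 i)
    have he' : ∀ i, e i ∈ range (2*k+1) := fun i => ((hJ1 _).1 (he i)).1
    refine ⟨fun i => a (e i), fun i => s (a (e i)), fun i => hadj _ (he' i), ?_, ?_⟩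
    · intro i j hij
      rcases lt_or_gt_of_ne hij with h | h
      · exact ((hJ1 _).1 (he j)).2 _ (he' i) (e.strictMono h)
      · intro hadj
        exact ((hJ1 _).1 (he i)).2 _ (he' j) (e.strictMono h) hadj.symm
    · intro i j hij
      exact key0 _ (he' i) _ (he' j) (e.strictMono hij)
  · obtain ⟨T, hTs, hTc⟩ := Finset.exists_subset_card_eq h
    apply hG
    obtain ⟨e, he0⟩ : ∃ e : Fin (k+1) ↪o ℕ, ∀ i, e i ∈ T :=
      ⟨T.orderEmbOfFin hTc, T.orderEmbOfFin_mem hTc⟩
    have he : ∀ i, e i ∈ J2 := fun i => hTs (he0 i)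
    have he' : ∀ i, e i ∈ range (2*k+1) := fun i => ((hJ2 _).1 (he i)).1
    refine ⟨fun i => s (a (e (Fin.rev i))), fun i => a (e (Fin.rev i)),
      fun i => (hadj _ (he' _)).symm, ?_, ?_⟩
    · intro i j hij
      rcases lt_or_gt_of_ne hij with h | h
      · intro hadj
        exact ((hJ2 _).1 (he (Fin.rev j))).2 _ (he' (Fin.rev i))
          (e.strictMono (Fin.rev_lt_rev.2 h)) hadj.symm
      · exact ((hJ2 _).1 (he (Fin.rev i))).2 _ (he' (Fin.rev j))
          (e.strictMono (Fin.rev_lt_rev.2 h))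
    · intro i j hij hadj
      exact key0 _ (he' (Fin.rev j)) _ (he' (Fin.rev i)) (e.strictMono (Fin.rev_lt_rev.2 hij)) hadj.symm

end Vale.Agent.H25.P308
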