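import Vale.Agent.H25.P308Core

open Finset

namespace Vale.Agent.H25.P308

variable {V : Type*} [DecidableEq V]

theorem exists_aug [Fintype V] (G : SimpleGraph V) (τ : V → V) (hτ : Inv G τ) (hτ' : ∀ v, τ v ≠ v) :
    ∀ (d : ℕ) (σ : V → V) (_ : Inv G σ) (u v : V) (_ : u ≠ v)
      (_ : ∀ x, σ x = x ↔ x = u ∨ x = v) (_ : (univ.filter (fun x => σ x ≠ τ x)).card ≤ d),
      ∃ l, Aug G σ u v l ∧ Valid σ l ∧ ∀ a ∈ l, τ a ≠ σ a := by
  intro d
  induction d with
  | zero =>
    intro σ hσ u v huv hfix hd
    exfalso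
    have h0 : u ∈ univ.filter (fun x => σ x ≠ τ x) := by
      simp only [mem_filter, mem_univ, true_and]
      rw [(hfix u).2 (Or.inl rfl)]
      exact (hτ' u).symm
    have := card_pos.2 ⟨u, h0⟩
    omega
  | succ d ih =>
    intro σ hσ u v huv hfix hd
    by_cases hwv : τ u = v
    · refine ⟨[], ?_, ?_, ?_⟩
      · simp only [Aug]
        have := hτ.2 u (hτ' u)
        rwa [hwv] at this
      · simp [Valid]
      · simp
    · obtain ⟨w, hw⟩ : ∃ w, w = τ u := ⟨_, rfl⟩
      obtain ⟨w', hw'⟩ : ∃ w', w' = σ w := ⟨_, rfl⟩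
      have hwu : w ≠ u := by rw [hw]; exact hτ' u
      have hwv' : w ≠ v := by rw [hw]; exact hwv
      have hww : σ w ≠ w := by
        intro h; rcases (hfix w).1 h with h | h
        · exact hwu h
        · exact hwv' h
      have hw'w : w' ≠ w := by rw [hw']; exact hww
      have hσu : σ u = u := (hfix u).2 (Or.inl rfl)
      have hσv : σ v = v := (hfix v).2 (Or.inr rfl)
      have hσw' : σ w' = w := by rw [hw']; exact hσ.1 w
      have hw'u : w' ≠ u := by
        intro h; rw [h, hσu] at hσw'; exact hwu hσw'.symm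
      have hw'v : w' ≠ v := by
        intro h; rw [h, hσv] at hσw'; exact hwv' hσw'.symm
      have hτw : τ w = u := by rw [hw]; exact hτ.1 u
      let σ1 : V → V := fun x => if x = u then w else if x = w then u else if x = w' then w' else σ x
      have e1 : σ1 u = w := by simp [σ1]
      have e2 : σ1 w = u := by simp [σ1, hwu]
      have e3 : σ1 w' = w' := by simp [σ1, hw'u, hw'w]
      have e4 : ∀ x, x ≠ u → x ≠ w → x ≠ w' → σ1 x = σ x := by
        intro x h1 h2 h3; simp [σ1, h1, h2, h3]
      have e5 : ∀ x, x ≠ u → x ≠ w → x ≠ w' → σ x ≠ u ∧ σ x ≠ w ∧ σ x ≠ w' := by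
        intro x h1 h2 h3
        refine ⟨?_, ?_, ?_⟩
        · intro h; apply h1; rw [← hσ.1 x, h, hσu]
        · intro h; apply h3; rw [← hσ.1 x, h, hw']
        · intro h; apply h2; rw [← hσ.1 x, h, hσw']
      have hinv : ∀ x, σ1 (σ1 x) = x := by
        intro x
        by_cases h1 : x = u
        · subst h1; rw [e1, e2]
        by_cases h2 : x = w
        · subst h2; rw [e2, e1]
        by_cases h3 : x = w'
        · subst h3; rw [e3, e3]
        obtain ⟨h4, h5, h6⟩ := e5 x h1 h2 h3
        rw [e4 x h1 h2 h3, e4 _ h4 h5 h6, hσ.1]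
      have hInv1 : Inv G σ1 := by
        refine ⟨hinv, ?_⟩
        intro x hx
        by_cases h1 : x = u
        · subst h1; rw [e1, hw]; exact hτ.2 _ (hτ' _)
        by_cases h2 : x = w
        · subst h2; rw [e2]
          have := hτ.2 u (hτ' u)
          rw [← hw] at this; exact this.symm
        by_cases h3 : x = w'
        · subst h3; exact absurd e3 hx
        rw [e4 x h1 h2 h3] at hx ⊢
        exact hσ.2 x hx
      have hfix1 : ∀ x, σ1 x = x ↔ x = w' ∨ x = v := by
        intro x
        by_cases h1 : x = u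
        · subst h1; rw [e1]
          constructor
          · intro h; exact absurd h hwu
          · rintro (h | h)
            · exact absurd h.symm hw'u
            · exact absurd h huv
        by_cases h2 : x = w
        · subst h2; rw [e2]
          constructor
          · intro h; exact absurd h.symm hwu
          · rintro (h | h)
            · exact absurd h.symm hw'w
            · exact absurd h hwv'
        by_cases h3 : x = w'
        · subst h3; simp [e3]
        rw [e4 x h1 h2 h3, hfix x]
        constructor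
        · rintro (h | h)
          · exact absurd h h1
          · exact Or.inr h
        · rintro (h | h)
          · exact absurd h h3
          · exact Or.inr h
      have hd1 : (univ.filter (fun x => σ1 x ≠ τ x)).card ≤ d := by
        have hss : univ.filter (fun x => σ1 x ≠ τ x) ⊆ (univ.filter (fun x => σ x ≠ τ x)).erase u := by
          intro x hx
          simp only [mem_filter, mem_univ, true_and] at hx
          rw [mem_erase]
          have h1 : x ≠ u := by rintro rfl; apply hx; rw [e1, hw]
          have h2 : x ≠ w := by rintro rfl; apply hx; rw [e2, hτw]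
          refine ⟨h1, ?_⟩
          simp only [mem_filter, mem_univ, true_and]
          by_cases h3 : x = w'
          · subst h3
            rw [hσw']
            intro h
            apply hw'u
            rw [← hτ.1 x, ← h, hτw]
          · rw [e4 x h1 h2 h3] at hx; exact hx
        have hmem : u ∈ univ.filter (fun x => σ x ≠ τ x) := by
          simp only [mem_filter, mem_univ, true_and]
          rw [hσu]; exact (hτ' u).symm
        have := card_le_card hss
        rw [card_erase_of_mem hmem] at this
        omega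
      obtain ⟨l1, hl1, hv1, hd1'⟩ := ih σ1 hInv1 w' v hw'v hfix1 hd1
      have hmem : ∀ a ∈ l1, a ≠ u ∧ a ≠ w ∧ a ≠ w' := by
        intro a ha
        refine ⟨?_, ?_, ?_⟩
        · rintro rfl; exact hd1' a ha (by rw [e1, hw])
        · rintro rfl; exact hd1' a ha (by rw [e2, hτw])
        · rintro rfl; exact hv1.2 a ha e3
      have hcongr : ∀ a ∈ l1, σ1 a = σ a := fun a ha => e4 a (hmem a ha).1 (hmem a ha).2.1 (hmem a ha).2.2
      refine ⟨w :: l1, ?_, ?_, ?_⟩
      · simp only [Aug]
        refine ⟨?_, ?_⟩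
        · rw [hw]; exact hτ.2 u (hτ' u)
        · rw [← hw', ← aug_congr G σ1 σ w' v l1 hcongr]; exact hl1
      · refine ⟨?_, ?_⟩
        · rw [List.map_cons, List.nodup_cons]
          refine ⟨?_, ?_⟩
          · intro hm
            rw [List.mem_map] at hm
            obtain ⟨a, ha, hae⟩ := hm
            rw [← hw', Sym2.eq_iff] at hae
            rcases hae with h | h
            · exact (hmem a ha).2.1 h.1
            · exact (hmem a ha).2.2 h.1
          · have : l1.map (fun a => s(a, σ a)) = l1.map (fun a => s(a, σ1 a)) := by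
              apply List.map_congr_left
              intro a ha; rw [hcongr a ha]
            rw [this]; exact hv1.1
        · intro a ha
          rcases List.mem_cons.1 ha with rfl | ha
          · exact hww
          · rw [← hcongr a ha]; exact hv1.2 a ha
      · intro a ha
        rcases List.mem_cons.1 ha with rfl | ha
        · rw [hτw, ← hw']; exact hw'u.symm
        · rw [← hcongr a ha]; exact hd1' a ha

/-- near-perfect partner functions having an augmenting chain with exactly `t` matched edges -/
def S (G : SimpleGraph V) (t : ℕ) : Set (V → V) :=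
  {σ | Inv G σ ∧ ∃ u v l, u ≠ v ∧ (∀ x, σ x = x ↔ x = u ∨ x = v) ∧ l.length = t ∧
    Aug G σ u v l ∧ Valid σ l}

def P (G : SimpleGraph V) : Set (V → V) := {σ | Inv G σ ∧ ∀ v, σ v ≠ v}

theorem S_zero (G : SimpleGraph V) : S G 0 ⊆
    (fun p : V × (V → V) => fun x => if x = p.1 ∨ x = p.2 p.1 then x else p.2 x) ''
      (Set.univ ×ˢ P G) := by
  rintro σ ⟨hσ, u, v, l, huv, hfix, hl, hA, hV⟩
  have hl0 : l = [] := List.length_eq_zero_iff.1 hl
  subst hl0
  simp only [Aug] at hA
  have hσu : σ u = u := (hfix u).2 (Or.inl rfl)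
  have hσv : σ v = v := (hfix v).2 (Or.inr rfl)
  have hout : ∀ x, x ≠ u → x ≠ v → σ x ≠ u ∧ σ x ≠ v := by
    intro x h1 h2
    constructor
    · intro h; apply h1; rw [← hσ.1 x, h, hσu]
    · intro h; apply h2; rw [← hσ.1 x, h, hσv]
  let σ' : V → V := fun x => if x = u then v else if x = v then u else σ x
  have e1 : σ' u = v := by simp [σ']
  have e2 : σ' v = u := by simp [σ', huv.symm]
  have e3 : ∀ x, x ≠ u → x ≠ v → σ' x = σ x := by intro x h1 h2; simp [σ', h1, h2]
  refine ⟨(u, σ'), ⟨Set.mem_univ _, ⟨?_, ?_⟩, ?_⟩, ?_⟩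
  · intro x
    by_cases h1 : x = u
    · subst h1; show σ' (σ' x) = x; rw [e1, e2]
    by_cases h2 : x = v
    · subst h2; show σ' (σ' x) = x; rw [e2, e1]
    show σ' (σ' x) = x
    obtain ⟨h3, h4⟩ := hout x h1 h2
    rw [e3 x h1 h2, e3 _ h3 h4, hσ.1]
  · intro x hx
    show G.Adj x (σ' x)
    by_cases h1 : x = u
    · subst h1; rw [e1]; exact hA
    by_cases h2 : x = v
    · subst h2; rw [e2]; exact hA.symm
    rw [e3 x h1 h2]
    apply hσ.2
    intro h; rcases (hfix x).1 h with h | h
    · exact h1 h
    · exact h2 h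
  · intro x
    show σ' x ≠ x
    by_cases h1 : x = u
    · subst h1; rw [e1]; exact huv.symm
    by_cases h2 : x = v
    · subst h2; rw [e2]; exact huv
    rw [e3 x h1 h2]
    intro h; rcases (hfix x).1 h with h | h
    · exact h1 h
    · exact h2 h
  · funext x
    simp only [e1]
    by_cases h1 : x = u
    · subst h1; simp [hσu]
    by_cases h2 : x = v
    · subst h2; simp [hσv]
    simp [h1, h2, e3 x h1 h2]

theorem S_succ (G : SimpleGraph V) (t : ℕ) : S G (t+1) ⊆
    (fun p : V × V × (V → V) => fun x => if x = p.1 then p.1 else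
      if x = p.2.1 then p.2.2 p.1 else if x = p.2.2 p.1 then p.2.1 else p.2.2 x) ''
      (Set.univ ×ˢ (Set.univ ×ˢ S G t)) := by
  rintro σ ⟨hσ, u, v, l, huv, hfix, hl, hA, hV⟩
  cases l with
  | nil => simp at hl
  | cons w l =>
    have hl' : l.length = t := by simpa using hl
    obtain ⟨hAw, hA'⟩ := hA
    obtain ⟨w', hw'⟩ : ∃ w', w' = σ w := ⟨_, rfl⟩
    have hσu : σ u = u := (hfix u).2 (Or.inl rfl)
    have hσv : σ v = v := (hfix v).2 (Or.inr rfl)
    have hww : σ w ≠ w := hV.2 w (by simp)
    have hwu : w ≠ u := by rintro rfl; exact hww hσu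
    have hwv : w ≠ v := by rintro rfl; exact hww hσv
    have hw'w : w' ≠ w := by rw [hw']; exact hww
    have hσw' : σ w' = w := by rw [hw']; exact hσ.1 w
    have hw'u : w' ≠ u := by
      intro h; rw [h, hσu] at hσw'; exact hwu hσw'.symm
    have hw'v : w' ≠ v := by
      intro h; rw [h, hσv] at hσw'; exact hwv hσw'.symm
    let σ1 : V → V := fun x => if x = u then w else if x = w then u else if x = w' then w' else σ x
    have e1 : σ1 u = w := by simp [σ1]
    have e2 : σ1 w = u := by simp [σ1, hwu]
    have e3 : σ1 w' = w' := by simp [σ1, hw'u, hw'w]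
    have e4 : ∀ x, x ≠ u → x ≠ w → x ≠ w' → σ1 x = σ x := by
      intro x h1 h2 h3; simp [σ1, h1, h2, h3]
    have e5 : ∀ x, x ≠ u → x ≠ w → x ≠ w' → σ x ≠ u ∧ σ x ≠ w ∧ σ x ≠ w' := by
      intro x h1 h2 h3
      refine ⟨?_, ?_, ?_⟩
      · intro h; apply h1; rw [← hσ.1 x, h, hσu]
      · intro h; apply h3; rw [← hσ.1 x, h, hw']
      · intro h; apply h2; rw [← hσ.1 x, h, hσw']
    have hinv : ∀ x, σ1 (σ1 x) = x := by
      intro x
      by_cases h1 : x = u
      · subst h1; rw [e1, e2]
      by_cases h2 : x = w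
      · subst h2; rw [e2, e1]
      by_cases h3 : x = w'
      · subst h3; rw [e3, e3]
      obtain ⟨h4, h5, h6⟩ := e5 x h1 h2 h3
      rw [e4 x h1 h2 h3, e4 _ h4 h5 h6, hσ.1]
    have hInv1 : Inv G σ1 := by
      refine ⟨hinv, ?_⟩
      intro x hx
      by_cases h1 : x = u
      · subst h1; rw [e1]; exact hAw
      by_cases h2 : x = w
      · subst h2; rw [e2]; exact hAw.symm
      by_cases h3 : x = w'
      · subst h3; exact absurd e3 hx
      rw [e4 x h1 h2 h3] at hx ⊢
      exact hσ.2 x hx
    have hfix1 : ∀ x, σ1 x = x ↔ x = w' ∨ x = v := by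
      intro x
      by_cases h1 : x = u
      · subst h1; rw [e1]
        constructor
        · intro h; exact absurd h hwu
        · rintro (h | h)
          · exact absurd h.symm hw'u
          · exact absurd h huv
      by_cases h2 : x = w
      · subst h2; rw [e2]
        constructor
        · intro h; exact absurd h.symm hwu
        · rintro (h | h)
          · exact absurd h.symm hw'w
          · exact absurd h hwv
      by_cases h3 : x = w'
      · subst h3; simp [e3]
      rw [e4 x h1 h2 h3, hfix x]
      constructor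
      · rintro (h | h)
        · exact absurd h h1
        · exact Or.inr h
      · rintro (h | h)
        · exact absurd h h3
        · exact Or.inr h
    obtain ⟨hVn, hVf⟩ := hV
    rw [List.map_cons, List.nodup_cons] at hVn
    have hmem : ∀ a ∈ l, a ≠ u ∧ a ≠ w ∧ a ≠ w' := by
      intro a ha
      refine ⟨?_, ?_, ?_⟩
      · rintro rfl; exact hVf a (by simp [ha]) hσu
      · rintro rfl; exact hVn.1 (List.mem_map.2 ⟨a, ha, rfl⟩)
      · intro haw
        apply hVn.1
        refine List.mem_map.2 ⟨a, ha, ?_⟩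
        rw [haw, hσw', ← hw']
        exact Sym2.eq_swap
    have hcongr : ∀ a ∈ l, σ a = σ1 a := fun a ha => (e4 a (hmem a ha).1 (hmem a ha).2.1 (hmem a ha).2.2).symm
    refine ⟨(u, w', σ1), ⟨Set.mem_univ _, Set.mem_univ _, hInv1, w', v, l, hw'v, hfix1, hl', ?_, ?_, ?_⟩, ?_⟩
    · show Aug G σ1 w' v l
      rw [← aug_congr G σ σ1 w' v l hcongr, hw']; exact hA'
    · show (l.map (fun a => s(a, σ1 a))).Nodup
      have : l.map (fun a => s(a, σ1 a)) = l.map (fun a => s(a, σ a)) := by
        apply List.map_congr_left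
        intro a ha; rw [hcongr a ha]
      rw [this]; exact hVn.2
    · intro a ha
      show σ1 a ≠ a
      rw [← hcongr a ha]; exact hVf a (by simp [ha])
    · funext x
      simp only [e1]
      by_cases h1 : x = u
      · subst h1; simp [hσu]
      by_cases h2 : x = w'
      · subst h2; simp [h1, hσw']
      by_cases h3 : x = w
      · subst h3; simp [h1, hw']
      simp [h1, h2, h3, e4 x h1 h3 h2]

theorem card_S [Fintype V] (G : SimpleGraph V) (t : ℕ) :
    (S G t).ncard ≤ (Fintype.card V) ^ (2*t+1) * (P G).ncard := by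
  induction t with
  | zero =>
    have h := Set.ncard_le_ncard (S_zero G) (Set.toFinite _)
    refine h.trans ((Set.ncard_image_le (Set.toFinite _)).trans ?_)
    rw [Set.ncard_prod, Set.ncard_univ, Nat.card_eq_fintype_card]
    simp
  | succ t ih =>
    have h := Set.ncard_le_ncard (S_succ G t) (Set.toFinite _)
    refine h.trans ((Set.ncard_image_le (Set.toFinite _)).trans ?_)
    rw [Set.ncard_prod, Set.ncard_prod, Set.ncard_univ, Nat.card_eq_fintype_card]
    calc Fintype.card V * (Fintype.card V * (S G t).ncard)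
        ≤ Fintype.card V * (Fintype.card V * ((Fintype.card V) ^ (2*t+1) * (P G).ncard)) := by
          gcongr
      _ = _ := by ring

/-- near-perfect partner functions -/
def N (G : SimpleGraph V) : Set (V → V) :=
  {σ | Inv G σ ∧ ∃ u v, u ≠ v ∧ (∀ x, σ x = x ↔ x = u ∨ x = v)}

theorem N_sub [Fintype V] (G : SimpleGraph V) (k : ℕ)
    (hG : ¬ HasHalf G (k+1)) (hP : (P G).Nonempty) :
    N G ⊆ ⋃ t ∈ range (4*k+1), S G t := by
  rintro σ ⟨hσ, u, v, huv, hfix⟩
  obtain ⟨τ, hτ, hτ'⟩ := hP
  obtain ⟨l, hl, hv, -⟩ := exists_aug G τ hτ hτ' _ σ hσ u v huv hfix le_rfl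
  classical
  have hex : ∃ n, ∃ l, Aug G σ u v l ∧ Valid σ l ∧ l.length = n := ⟨_, l, hl, hv, rfl⟩
  obtain ⟨l', h1, h2, h3⟩ := Nat.find_spec hex
  have hmin : ∀ l'', Aug G σ u v l'' → Valid σ l'' → l'.length ≤ l''.length := by
    intro l'' h4 h5
    rw [h3]
    exact Nat.find_min' hex ⟨l'', h4, h5, rfl⟩
  have hshort := short G k hG σ hσ u v l' h1 h2 hmin
  simp only [Set.mem_iUnion]
  refine ⟨l'.length, by simp; omega, hσ, u, v, l', huv, hfix, rfl, h1, h2⟩

theorem card_N [Fintype V] (G : SimpleGraph V) (k : ℕ)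
    (hG : ¬ HasHalf G (k+1)) (hP : (P G).Nonempty) :
    (N G).ncard ≤ (4*k+1) * (Fintype.card V) ^ (8*k+1) * (P G).ncard := by
  have h := Set.ncard_le_ncard (N_sub G k hG hP) (Set.toFinite _)
  refine h.trans ?_
  have hcard : 0 < Fintype.card V ∨ Fintype.card V = 0 := by omega
  rcases hcard with hcard | hcard
  · calc (⋃ t ∈ range (4*k+1), S G t).ncard
        ≤ ∑ t ∈ range (4*k+1), (S G t).ncard := by
          exact Finset.set_ncard_biUnion_le _ _
      _ ≤ ∑ t ∈ range (4*k+1), (Fintype.card V) ^ (8*k+1) * (P G).ncard := by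
          apply Finset.sum_le_sum
          intro t ht
          refine (card_S G t).trans ?_
          refine Nat.mul_le_mul_right _ (Nat.pow_le_pow_right hcard ?_)
          simp at ht; omega
      _ = _ := by
          rw [Finset.sum_const, card_range, smul_eq_mul]; ring
  · have : IsEmpty V := Fintype.card_eq_zero_iff.1 hcard
    have he : (⋃ t ∈ range (4*k+1), S G t) = ∅ := by
      rw [Set.eq_empty_iff_forall_notMem]
      intro σ hσ
      simp only [Set.mem_iUnion] at hσ
      obtain ⟨t, -, hσ⟩ := hσ
      obtain ⟨-, u, -⟩ := hσ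
      exact this.elim u
    rw [he]; simp

end Vale.Agent.H25.P308
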